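import Mathlib
import Vale.Agent.P358.Capacity

/-!
The classical capacity of the generalized amplitude-damping channel equals its Holevo capacity.
-/

noncomputable section

open Vale.Agent.P358

namespace Vale.Agent.Results.P358.Additivity

theorem result (γ ν : ℝ) (hγ : γ ∈ Set.Icc (0 : ℝ) 1) (hν : ν ∈ Set.Icc (0 : ℝ) 1) :
    capacity γ ν = chi (gad γ ν) ∧
    (∀ n : ℕ, chi (gadPow γ ν n) = n * chi (gad γ ν)) ∧
    ((holevoValues (gad γ ν)).Nonempty ∧ BddAbove (holevoValues (gad γ ν))) ∧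
    (∀ n : ℕ, (holevoValues (gadPow γ ν n)).Nonempty ∧ BddAbove (holevoValues (gadPow γ ν n))) ∧
    (∀ (n : ℕ) (ρ : Fin n → Matrix (Fin 2) (Fin 2) ℂ),
      gadPow γ ν n (tensor ρ) = tensor fun i => gad γ ν (ρ i)) := by
  obtain ⟨hγ0, hγ1⟩ := hγ
  obtain ⟨hν0, hν1⟩ := hν
  refine ⟨capacity_eq hγ0 hγ1 hν0 hν1, chi_gadPow hγ0 hγ1 hν0 hν1,
    ⟨nonempty_values _, bddAbove_gad hγ0 hγ1 hν0 hν1⟩,
    fun n => ⟨⟨_, mul_mem_values hγ0 hγ1 hν0 hν1 n (nonempty_values (gad γ ν)).some_mem⟩,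
      ⟨_, fun r hr => value_pow_le hγ0 hγ1 hν0 hν1 n hr⟩⟩,
    fun n ρ => gadPow_tensor hγ0 hγ1 hν0 hν1 ρ⟩

end Vale.Agent.Results.P358.Additivity
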